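import Vale.Agent.P057SB.Key
import Vale.Agent.P057EN.Dbl

/-!
Substitutions transport events, forms and near integral relations.
-/

set_option linter.all false

open Finset Matrix
open Vale.Agent.P267.H775 Vale.Agent.P057G Vale.Agent.P057MA Vale.Agent.P057PC
open Vale.Agent.P057TP Vale.Agent.P057GH Vale.Agent.P057DP

namespace Vale.Agent.P057SB

noncomputable section

section lin

variable {T : Tow} {D W₁ W₂ R : Type} [CommRing R] {m : ℕ} {cl₁ : W₁ → D} {cl₂ : W₂ → D}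
  {M : W₂ → W₁ → ℤ}

theorem abs_cf (hM : Cm cl₂ cl₁ M) (F : Finset W₂) {A : Finset W₁} (hA : Set.InjOn cl₁ A) :
    |cf M F A| ≤ 1 := by
  rw [cf, abs_prod]
  refine prod_le_one (fun _ _ => abs_nonneg _) fun x _ => ?_
  by_cases h : ∃ v ∈ A, M x v ≠ 0
  · obtain ⟨v, hv, h0⟩ := h
    rw [sum_eq_single_of_mem v hv fun u hu hne => by_contra fun h1 =>
      hne (hA hu hv (((hM x u).1 h1).symm.trans ((hM x v).1 h0)))]
    exact (hM x v).2
  · rw [sum_eq_zero fun v hv => by_contra fun h0 => h ⟨v, hv, h0⟩]; simp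

variable [Fintype W₂]

theorem sub_add (z z' : Lb T cl₂ Empty m → R) :
    (sub M (z + z') : Lb T cl₁ Empty m → R) = sub M z + sub M z' := by
  funext k
  simp only [sub_def, Pi.add_apply, ← sum_add_distrib]
  exact sum_congr rfl fun l _ => by split_ifs <;> simp [mul_add]

theorem sub_smul (c : R) (z : Lb T cl₂ Empty m → R) :
    (sub M (c • z) : Lb T cl₁ Empty m → R) = c • sub M z := by
  funext k
  simp only [sub_def, Pi.smul_apply, smul_eq_mul, mul_sum]
  exact sum_congr rfl fun l _ => by split_ifs <;> simp [mul_left_comm]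

theorem sub_sub' (z z' : Lb T cl₂ Empty m → R) :
    (sub M (z - z') : Lb T cl₁ Empty m → R) = sub M z - sub M z' := by
  funext k
  simp only [sub_def, Pi.sub_apply, ← sum_sub_distrib]
  exact sum_congr rfl fun l _ => by split_ifs <;> simp [mul_sub]

theorem toR_sub (z : Lb T cl₂ Empty m → ℤ) :
    toR (sub M z : Lb T cl₁ Empty m → ℤ) = sub M (toR z) := by
  funext k
  simp only [toR, sub_def, Int.cast_sum, Int.cast_ite, Int.cast_mul, Int.cast_id, Int.cast_zero]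

end lin

variable {T : Tow} {s : ℕ} {N : ℝ} {D W X X₁ X₂ : Type} [Fintype W] [DecidableEq W] [Fintype X]
  [DecidableEq X] [Fintype X₁] [DecidableEq X₁] [Fintype X₂] [DecidableEq X₂] {Z : Sys T W Unit}
  {cl : W → D} {m : ℕ} {O : Ov W X} {O₁ : Ov W X₁} {O₂ : Ov W X₂} {M : X₂ → X₁ → ℤ}
  {P : X → Prop} {P₁ : X₁ → Prop} {P₂ : X₂ → Prop}

theorem mem_b0 {l : LT T cl m O} : l ∈ b0 T cl m O Unit Empty P ↔
    Sum.inr () ∉ l.fc ∧ ∀ x, Sum.inl x ∈ l.fc → P x := by
  classical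
  exact (@mem_filter _ _ (_) _ _).trans ⟨fun h => ⟨h.2.1.2 (), h.2.2⟩,
    fun h => ⟨mem_univ _, ⟨bs_none l, fun _ => h.1⟩, h.2⟩⟩

theorem mem_st {l : LT T cl m O} : l ∈ st T cl m O P ↔
    Sum.inr () ∈ l.fc ∧ ∀ x, Sum.inl x ∈ l.fc → P x := by
  simp only [st, mem_filter, mem_univ, true_and]

theorem mem_un {l : LT T cl m O} : l ∈ b0 T cl m O Unit Empty P ∪ st T cl m O P ↔
    ∀ x, Sum.inl x ∈ l.fc → P x := by
  rw [mem_union, mem_b0, mem_st, ← or_and_right]
  exact and_iff_right (em' _)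

theorem sm_cm (h : Sm cl O₂ O₁ M P₂ P₁) : Cm (O₂.cl cl Unit) (O₁.cl cl Unit) (ex M) := by
  rintro (x | x) (v | v)
  · exact ⟨fun h0 => congrArg some (h.cls x v h0), h.le x v⟩
  all_goals simp [ex, Ov.cl]

theorem sm_jm (h : Sm cl O₂ O₁ M P₂ P₁) :
    Jm (O₂.j Unit) (O₁.j Unit) (ex M) (Sum.elim P₁ fun _ => True) := by
  rintro (v | v) hv w
  · have := h.jk v hv w
    simp only [Fintype.sum_sum_type, ex, Ov.j, Sum.elim_inl, Sum.elim_inr,
      Option.ite_none_right_eq_some, Option.some.injEq]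
    exact (congrArg₂ (· + ·) this (sum_eq_zero fun _ _ => ite_self _)).trans (add_zero _)
  · simp [Fintype.sum_sum_type, ex, Ov.j]

theorem star_iff (h : Sm cl O₂ O₁ M P₂ P₁) {l : LT T cl m O₂} {k : LT T cl m O₁} (e : l.cd = k.cd)
    (h0 : cf (ex M) l.fc k.fc ≠ 0) : Sum.inr () ∈ l.fc ↔ Sum.inr () ∈ k.fc := by
  refine ⟨fun h1 => ?_, fun h1 => ?_⟩
  · obtain ⟨v | v, h2, h3⟩ := cf_nb h0 h1
    exacts [(h3 rfl).elim, h2]
  · obtain ⟨v | v, h2, h3⟩ := cf_nb' (F := l.fc) (fun x v => (sm_cm h x v).1) l.2.2.1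
      (by rw [l.card_eq (bs_none l), k.card_eq (bs_none k), e]) h0 h1
    exacts [(h3 rfl).elim, h2]

theorem dom_of (h : Sm cl O₂ O₁ M P₂ P₁) {l : LT T cl m O₂} {k : LT T cl m O₁}
    (h0 : cf (ex M) l.fc k.fc ≠ 0) (hk : ∀ v, Sum.inl v ∈ k.fc → P₁ v) (x : X₂)
    (hx : Sum.inl x ∈ l.fc) : P₂ x := by
  obtain ⟨v | v, h2, h3⟩ := cf_nb h0 hx
  exacts [h.dom x v h3 (hk v h2), (h3 rfl).elim]

theorem b0_of (h : Sm cl O₂ O₁ M P₂ P₁) {l : LT T cl m O₂} {k : LT T cl m O₁} (e : l.cd = k.cd)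
    (h0 : cf (ex M) l.fc k.fc ≠ 0) (hk : k ∈ b0 T cl m O₁ Unit Empty P₁) :
    l ∈ b0 T cl m O₂ Unit Empty P₂ :=
  mem_b0.2 ⟨fun a => (mem_b0.1 hk).1 ((star_iff h e h0).1 a), dom_of h h0 (mem_b0.1 hk).2⟩

theorem st_of (h : Sm cl O₂ O₁ M P₂ P₁) {l : LT T cl m O₂} {k : LT T cl m O₁} (e : l.cd = k.cd)
    (h0 : cf (ex M) l.fc k.fc ≠ 0) (hk : k ∈ st T cl m O₁ P₁) : l ∈ st T cl m O₂ P₂ :=
  mem_st.2 ⟨(star_iff h e h0).2 (mem_st.1 hk).1, dom_of h h0 (mem_st.1 hk).2⟩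

theorem sub_mix (h : Sm cl O₂ O₁ M P₂ P₁) {R : Type} [CommRing R] (x y : LT T cl m O₂ → R) :
    (sub (ex M) (mix (st T cl m O₂ fun _ => True) x y) : LT T cl m O₁ → R) =
      mix (st T cl m O₁ fun _ => True) (sub (ex M) x) (sub (ex M) y) := by
  funext k
  by_cases hk : k ∈ st T cl m O₁ fun _ => True
  · rw [mix_pos _ _ hk]
    exact sub_congr fun l e h0 => mix_pos _ _
      (mem_st.2 ⟨(star_iff h e h0).2 (mem_st.1 hk).1, fun _ _ => trivial⟩)
  · rw [mix_neg _ _ hk]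
    exact sub_congr fun l e h0 => mix_neg _ _ fun a =>
      hk (mem_st.2 ⟨(star_iff h e h0).1 (mem_st.1 a).1, fun _ _ => trivial⟩)

theorem star_face {A : Finset (X ⊕ Unit)} (h : Sum.inr () ∈ A) : A.toLeft.disjSum univ = A := by
  ext (v | v) <;> simp [h]

theorem pd_tst (hT : T.Ok s N) (Z : Sys T W Unit) (O : Ov W X) {ω : ℝ} (hω : 0 < ω) :
    (tst cl m Z O (fun _ => 1) ω).G.PosDef :=
  pd_sG (a := fun A _ => if Sum.inr () ∈ A then ω else sc (fun _ => 1) A) hT.pd fun A _ => by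
    split_ifs
    · exact hω
    · exact prod_pos fun v _ => by cases v <;> exact one_pos

theorem tst_G {σ : X → ℝ} {ω : ℝ} {l l' : LT T cl m O} (h : Sum.inr () ∈ l.fc) (e : l.fc = l'.fc) :
    (tst cl m Z O σ ω).G l l' = ω * T.G l.cd l'.cd := by
  have h1 : Gam T _ _ m l l' = T.G l.cd l'.cd := if_pos ⟨e, (bs_none l).trans (bs_none l').symm⟩
  change (if Sum.inr () ∈ l.fc then ω else sc σ l.fc) * Gam T _ _ m l l' = _
  rw [if_pos h, h1]

/-- the norm of the substitution on the star -/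
theorem qq_sub_le (hT : T.Ok s N) (h : Sm cl O₂ O₁ M P₂ P₁) {ω : ℝ} (hω : 0 < ω)
    (ξ : LT T cl m O₂ → ℝ) :
    qq (tst cl m Z O₁ (fun _ => 1) ω).G (msk (st T cl m O₁ P₁) (sub (ex M) ξ)) ≤
      (2 ^ (Fintype.card X₁ + Fintype.card X₂)) ^ 2 * qq (tst cl m Z O₂ (fun _ => 1) ω).G ξ := by
  classical
  have pd : ∀ {X : Type} [Fintype X] [DecidableEq X] (O : Ov W X),
      (tst cl m Z O (fun _ => 1) ω).G.PosDef := fun O => pd_tst hT Z O hω
  let r : Finset X₁ × Finset X₂ → LT T cl m O₁ → LT T cl m O₂ → Prop := fun F k l =>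
    k ∈ st T cl m O₁ P₁ ∧ k.fc = F.1.disjSum univ ∧ l.fc = F.2.disjSum univ ∧ l.cd = k.cd
  let c : Finset X₁ × Finset X₂ → ℤ := fun F => cf (ex M) (F.2.disjSum univ) (F.1.disjSum univ)
  have e : msk (st T cl m O₁ P₁) (sub (ex M) ξ) = ∑ F, ((if |c F| ≤ 1 then c F else 0 : ℤ) : ℝ) •
      (Matrix.of (fun k l => if r F k l then (1 : ℝ) else 0) *ᵥ ξ) := by
    funext k
    simp only [Finset.sum_apply, Pi.smul_apply, smul_eq_mul, mulVec, dotProduct, of_apply, mul_sum]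
    by_cases hk : k ∈ st T cl m O₁ P₁
    · rw [msk_pos _ hk, sub_def, sum_comm]
      refine sum_congr rfl fun l _ => ?_
      by_cases hl : Sum.inr () ∈ l.fc ∧ l.cd = k.cd
      · have a1 := star_face (mem_st.1 hk).1
        have a2 := star_face hl.1
        have a3 : c (k.fc.toLeft, l.fc.toLeft) = cf (ex M) l.fc k.fc := by simp only [c, a1, a2]
        rw [sum_eq_single (k.fc.toLeft, l.fc.toLeft), if_pos hl.2, a3,
          if_pos (abs_cf (A := k.fc) (sm_cm h) _ k.2.2.1), if_pos ⟨hk, a1.symm, a2.symm, hl.2⟩, one_mul]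
        · intro F _ hF
          rw [if_neg (c := r F k l) fun a => hF (Prod.ext (by simp [a.2.1]) (by simp [a.2.2.1])),
            zero_mul, mul_zero]
        · simp
      · rw [sum_eq_zero fun F _ => by
          rw [if_neg (c := r F k l) fun a => hl ⟨by simp [a.2.2.1], a.2.2.2⟩, zero_mul, mul_zero]]
        split_ifs with a
        · rw [show cf (ex M) l.fc k.fc = 0 from by_contra fun h0 =>
            hl ⟨(star_iff h a h0).2 (mem_st.1 hk).1, a⟩, Int.cast_zero, zero_mul]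
        · rfl
    · rw [msk_neg _ hk]
      exact (sum_eq_zero fun F _ => sum_eq_zero fun l _ => by
        rw [if_neg (c := r F k l) fun a => hk a.1, zero_mul, mul_zero]).symm
  have hF : ∀ F, qq (tst cl m Z O₁ (fun _ => 1) ω).G
      (((if |c F| ≤ 1 then c F else 0 : ℤ) : ℝ) •
        (Matrix.of (fun k l => if r F k l then (1 : ℝ) else 0) *ᵥ ξ)) ≤
      qq (tst cl m Z O₂ (fun _ => 1) ω).G ξ := fun F => by
    rw [qq_smul]
    refine (mul_le_of_le_one_left (qq_nonneg (pd O₁).posSemidef _) ?_).trans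
      (P057EN.qq_rel (pd O₂) (r F) (fun k k' l a b => ?_) (fun k k' l l' a b => ?_)
        (fun l l' a b => ?_) ξ)
    · rw [sq_le_one_iff_abs_le_one]
      split_ifs with a
      · exact_mod_cast a
      · simp
    · exact Lb.ext' (a.2.2.2.symm.trans b.2.2.2) (a.2.1.trans b.2.1.symm)
        ((bs_none _).trans (bs_none _).symm)
    · rw [tst_G (mem_st.1 a.1).1 (a.2.1.trans b.2.1.symm),
        tst_G (by simp [a.2.2.1]) (a.2.2.1.trans b.2.2.1.symm), a.2.2.2, b.2.2.2]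
    · obtain ⟨k, a⟩ := a
      by_contra h0
      have h1 := (Gam_ne (right_ne_zero_of_mul h0)).1
      exact b ⟨⟨(l'.cd, k.fc, none), l'.2.1, k.2.2.1, by
        change k.fc.card = T.lv l'.cd
        rw [← l'.card_eq (bs_none _), ← h1, l.card_eq (bs_none _), k.card_eq (bs_none _), a.2.2.2]⟩,
        mem_st.2 (mem_st.1 a.1 :), a.2.1, h1 ▸ a.2.2.1, rfl⟩
  rw [e]
  refine (qq_sum_le (pd O₁).posSemidef _ _).trans ((mul_le_mul_of_nonneg_left
    (sum_le_card_nsmul _ _ _ fun F _ => hF F) (Nat.cast_nonneg _)).trans (le_of_eq ?_))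
  simp only [card_univ, Fintype.card_prod, Fintype.card_finset, nsmul_eq_mul]
  push_cast
  ring

theorem nrs : NRS := by
  intro T s N D W X₁ X₂ _ _ _ _ _ _ Z cl m O₁ O₂ M P₁ P₂ hT hZ h
  refine ⟨fun α E hE z z' hz => hE _ _ fun k hk => sub_congr fun l e h0 => hz l (b0_of h e h0 hk),
    fun Θ hΘ => ⟨⟨fun z z' hz => hΘ.dp _ _ fun k hk => sub_congr fun l _ h0 =>
      hz l (mem_un.2 (dom_of h h0 (mem_un.1 hk))), fun y => ?_⟩, fun ω K y hω hK hN => ?_⟩⟩
  · have := hΘ.lin (sub (ex M) y)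
    simp only [sub_mix h]
    exact ⟨fun a b => by rw [sub_add, this.map_add], fun c a => by rw [sub_smul, this.map_smul]⟩
  · obtain ⟨k₁, hk₁⟩ := hN
    refine ⟨fun l => ∑ i ∈ st T cl m O₁ P₁, if l.cd = i.cd then k₁ i * cf (ex M) l.fc i.fc else 0,
      fun x => ?_⟩
    generalize hu : mix (st T cl m O₂ P₂) x y = u
    have h1 : ∀ k ∈ b0 T cl m O₁ Unit Empty P₁ ∪ st T cl m O₁ P₁,
        mix (st T cl m O₁ P₁) (sub (ex M) u) (sub (ex M) y) k = sub (ex M) u k := fun k hk => by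
      by_cases a : k ∈ st T cl m O₁ P₁
      · exact mix_pos _ _ a
      · rw [mix_neg _ _ a, ← hu]
        exact sub_congr fun l e h0 => (mix_neg _ _ fun b =>
          (mem_b0.1 (b0_of h e h0 ((mem_union.1 hk).resolve_right a))).1 (mem_st.1 b).1).symm
    have h2 := hk₁ (sub (ex M) u)
    rw [hΘ.dp _ _ h1] at h2
    have h3 : ∑ i ∈ st T cl m O₁ P₁, (k₁ i : ℝ) * sub (ex M) u i = ∑ l ∈ st T cl m O₂ P₂,
        ((∑ i ∈ st T cl m O₁ P₁, if l.cd = i.cd then k₁ i * cf (ex M) l.fc i.fc else 0 : ℤ) : ℝ) *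
          x l := by
      simp only [Int.cast_sum, sum_mul]
      rw [sum_comm]
      refine sum_congr rfl fun i hi => ?_
      rw [sub_def, mul_sum, ← sum_subset (subset_univ (st T cl m O₂ P₂)) fun l _ hl => ?_]
      · refine sum_congr rfl fun l hl => ?_
        rw [← hu, mix_pos _ _ hl]
        split_ifs <;> simp [mul_assoc]
      · split_ifs with a
        · rw [show cf (ex M) l.fc i.fc = 0 from by_contra fun h0 => hl (st_of h a h0 hi)]; simp
        · exact mul_zero _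
    rw [← h3]
    refine h2.trans ?_
    rw [mul_comm _ K, mul_assoc]
    refine mul_le_mul_of_nonneg_left (Real.sqrt_le_iff.2 ⟨by positivity, ?_⟩) hK
    have h4 := qq_sub_le (Z := Z) hT h hω (msk (st T cl m O₂ P₂)
      (u - (tst cl m Z O₂ (fun _ => 1) ω).p u))
    rw [mul_pow, ln2, ln2, Real.sq_sqrt (qq_nonneg (pd_tst hT Z O₂ hω).posSemidef _)]
    refine le_trans (le_of_eq (congrArg _ (msk_congr fun k hk => ?_))) h4
    rw [sub_congr (z' := u - (pbo Z (O₂.j Unit) Empty).pr _ m u) fun l e h0 =>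
      (msk_pos _ (st_of h e h0 hk)).trans (congrArg (u l - ·) (add_zero _)), sub_sub', Pi.sub_apply,
      Pi.sub_apply, h1 k (mem_union_right _ hk),
      ← subp T _ W _ _ Z m _ _ _ _ _ _ hZ (sm_cm h) (sm_jm h) u k fun v hv => by
        cases v
        exacts [(mem_st.1 hk).2 _ hv, trivial]]
    exact congrArg (_ - ·) ((add_zero _).trans (pr_congr hT (ok_pbo hZ _ _) fun l' a _ _ =>
      h1 l' (mem_un.2 fun v hv => (mem_st.1 hk).2 v (a hv))))

end

end Vale.Agent.P057SB
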