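import Vale.Agent.P057DP.Plan
import Vale.Agent.P057TP.Alg2

/-!
Substitutions of vertices as ring maps; they commute with the centres and compose.
-/

set_option linter.all false

open Finset MvPolynomial
open Vale.Agent.P057TP Vale.Agent.P057GH Vale.Agent.P057DP

namespace Vale.Agent.P057SB

noncomputable section

variable {T : Tow} {D W W₁ W₂ W₃ R : Type} [CommRing R] {m : ℕ} {cl₁ : W₁ → D} {cl₂ : W₂ → D}
  {cl₃ : W₃ → D} {M : W₂ → W₁ → ℤ}

/-- the coefficient of the substitution -/
def cf (M : W₂ → W₁ → ℤ) (F : Finset W₂) (A : Finset W₁) : ℤ := ∏ x ∈ F, ∑ v ∈ A, M x v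

theorem cf_nb {F : Finset W₂} {A : Finset W₁} (h : cf M F A ≠ 0) {x : W₂} (hx : x ∈ F) :
    ∃ v ∈ A, M x v ≠ 0 := exists_ne_zero_of_sum_ne_zero (prod_ne_zero_iff.1 h x hx)

/-- a class injective set whose points have neighbours -/
theorem card_nb {A : Finset W₁} {F : Finset W₂} (hA : Set.InjOn cl₁ A)
    (h : ∀ v ∈ A, ∃ x ∈ F, cl₂ x = cl₁ v) (hc : F.card ≤ A.card) :
    Set.InjOn cl₂ F ∧ F.card = A.card := by
  classical
  have h1 : A.image cl₁ ⊆ F.image cl₂ := fun c hc => by
    obtain ⟨v, hv, rfl⟩ := mem_image.1 hc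
    exact mem_image.2 (h v hv)
  have h2 := card_le_card h1
  have h3 : (F.image cl₂).card ≤ F.card := card_image_le
  rw [card_image_of_injOn hA] at h2
  exact ⟨card_image_iff.1 (by omega), by omega⟩

/-- a nonzero coefficient matches the two faces -/
theorem cf_nb' (hM : ∀ x v, M x v ≠ 0 → cl₂ x = cl₁ v) {F : Finset W₂} {A : Finset W₁}
    (hF : Set.InjOn cl₂ F) (hc : F.card = A.card) (h : cf M F A ≠ 0) {v : W₁} (hv : v ∈ A) :
    ∃ x ∈ F, M x v ≠ 0 := by
  classical
  have h1 := card_nb (cl₁ := cl₂) (cl₂ := cl₁) (F := A.filter fun v => ∃ x ∈ F, M x v ≠ 0) hF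
    (fun x hx => by
      obtain ⟨v, h1, h2⟩ := cf_nb h hx
      exact ⟨v, mem_filter.2 ⟨h1, x, hx, h2⟩, (hM x v h2).symm⟩)
    ((card_filter_le _ _).trans hc.ge)
  exact (mem_filter.1 ((eq_of_subset_of_card_le (filter_subset _ A) (hc ▸ h1.2.ge)).ge hv)).2

variable [Fintype W₁] [DecidableEq W₁]

/-- the substitution as a ring map -/
def ph (R : Type) [CommRing R] (M : W₂ → W₁ → ℤ) : Lam R W₂ →+* Lam R W₁ :=
  sb fun x => ∑ v, C (M x v : R) * X (some v)

theorem evA_ph (B : Finset W₁) (x : W₂) :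
    evA B (ph R M (X (some x))) = ((∑ v ∈ B, M x v : ℤ) : R) := by
  simp only [ph, sb_some, map_sum, map_mul, evA_C, evA_some, mul_ite, mul_one, mul_zero,
    sum_ite_mem, univ_inter, Int.cast_sum]

theorem ph_hom {G : Lam R W₂} {d : ℕ} (hG : IsHomogeneous G d) : IsHomogeneous (ph R M G) d := by
  have := hG.aeval (fun x : Option W₂ => x.elim (X none : Lam R W₁)
    fun x => ∑ v, C (M x v : R) * X (some v)) (n := 1) fun x => by
      cases x
      · exact isHomogeneous_X _ _
      · exact IsHomogeneous.sum _ _ _ fun v _ => (isHomogeneous_X _ _).C_mul _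
  rwa [one_mul] at this

variable [DecidableEq W₂]

theorem evA_ph_mono (B : Finset W₁) (μ : Option W₂ →₀ ℕ) (r : R) :
    evA B (ph R M (monomial μ r)) =
      r * ∏ x ∈ spW μ, ((∑ v ∈ B, M x v : ℤ) : R) ^ μ (some x) := by
  have h : μ.support ⊆ insertNone (spW μ) := fun x hx => by
    cases x with
    | none => simp
    | some w => simpa [spW] using hx
  rw [monomial_eq, map_mul, map_mul, Finsupp.prod_of_support_subset _ h _ (by simp),
    prod_insertNone]
  simp only [map_mul, map_prod, map_pow, evA_ph]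
  simp only [ph, sb_C, sb_none, evA_C, evA_none, one_pow, one_mul]

open Classical in
theorem key0 (hM : ∀ x v, M x v ≠ 0 → cl₂ x = cl₁ v) {A : Finset W₁} (hA : Set.InjOn cl₁ A)
    {μ : Option W₂ →₀ ℕ} (hμ : Finsupp.degree μ = A.card) (r : R) :
    altL A (ph R M (monomial μ r)) =
      if Set.InjOn cl₂ (spW μ) ∧ (spW μ).card = A.card then (cf M (spW μ) A : R) * r else 0 := by
  have h1 : altL A (ph R M (monomial μ r)) =
      if (A.filter fun v => ∃ x ∈ spW μ, M x v ≠ 0) = A then
        r * ∏ x ∈ spW μ, ((∑ v ∈ A, M x v : ℤ) : R) ^ μ (some x) else 0 := by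
    rw [← dlt_ind]
    refine dlt_congr fun B hB => ?_
    rw [evA_ph_mono]
    split_ifs with h
    · refine congrArg _ (prod_congr rfl fun x hx => ?_)
      rw [sum_subset hB fun v hv hn => by_contra fun h0 => hn (h (mem_filter.2 ⟨hv, x, hx, h0⟩))]
    · obtain ⟨v, hv, hn⟩ := not_subset.1 h
      obtain ⟨h2, x, hx, h0⟩ := mem_filter.1 hv
      rw [prod_eq_zero hx, mul_zero]
      rw [sum_eq_zero fun u hu => by_contra fun h3 =>
        hn (hA (hB hu) h2 ((hM x u h3).symm.trans (hM x v h0)) ▸ hu), Int.cast_zero,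
        zero_pow (mem_spW.1 hx)]
  have h2 := card_spW_le μ
  rw [h1]
  split_ifs with k1 k2 k2
  · rw [mul_comm, cf, Int.cast_prod]
    refine congrArg (· * r) (prod_congr rfl fun x hx => ?_)
    have h3 := degree_opt μ
    have h4 : ∑ w ∈ spW μ, 1 = ∑ w ∈ spW μ, μ (some w) := by
      refine le_antisymm (sum_le_sum fun w hw => Nat.one_le_iff_ne_zero.2 (mem_spW.1 hw)) ?_
      rw [← card_eq_sum_ones, k2.2]; omega
    rw [← (sum_eq_sum_iff_of_le fun w hw => Nat.one_le_iff_ne_zero.2 (mem_spW.1 hw)).1 h4 x hx,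
      pow_one]
  · refine (k2 (card_nb hA (fun v hv => ?_) (by omega))).elim
    obtain ⟨-, x, hx, h0⟩ := mem_filter.1 (k1.ge hv)
    exact ⟨x, hx, hM x v h0⟩
  · rw [show cf M (spW μ) A = 0 from by_contra fun h => k1 (filter_true_of_mem fun v hv =>
      cf_nb' hM k2.1 k2.2 h hv), Int.cast_zero, zero_mul]
  · rfl

omit [Fintype W₁] [DecidableEq W₁] [DecidableEq W₂] in
theorem bs_none (l : Lb T cl₁ Empty m) : l.bs = none := by
  cases l.bs with
  | none => rfl
  | some s => exact s.elim

variable [Fintype W₂]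

omit [Fintype W₁] [DecidableEq W₁] [DecidableEq W₂] in
theorem sub_def (z : Lb T cl₂ Empty m → R) (k : Lb T cl₁ Empty m) :
    sub M z k = ∑ l, if l.cd = k.cd then (cf M l.fc k.fc : R) * z l else 0 := rfl

omit [Fintype W₁] [DecidableEq W₁] [DecidableEq W₂] in
theorem sub_congr {z z' : Lb T cl₂ Empty m → R} {k : Lb T cl₁ Empty m}
    (h : ∀ l : Lb T cl₂ Empty m, l.cd = k.cd → cf M l.fc k.fc ≠ 0 → z l = z' l) :
    sub M z k = sub M z' k := by
  refine sum_congr rfl fun l _ => ite_congr rfl (fun e => ?_) fun _ => rfl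
  change (cf M l.fc k.fc : R) * _ = (cf M l.fc k.fc : R) * _
  by_cases h0 : cf M l.fc k.fc = 0
  · simp [h0]
  · rw [h l e h0]

/-- the pure coefficients of the image of a homogeneous element -/
theorem key (hM : ∀ x v, M x v ≠ 0 → cl₂ x = cl₁ v) (k : Lb T cl₁ Empty m) {G : Lam R W₂}
    (hG : IsHomogeneous G (T.lv k.cd)) :
    altL k.fc (ph R M G) = sub M (fun l : Lb T cl₂ Empty m => altL l.fc G) k := by
  have hk := k.card_eq (bs_none k)
  conv_lhs => rw [G.as_sum, map_sum, altL_sum]
  simp only [sub_def, altL_eq_sum _ G, mul_sum]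
  rw [sum_congr rfl fun l _ => ite_sum_zero _ _ _, sum_comm]
  refine sum_congr rfl fun μ hμ => ?_
  rw [key0 hM (A := k.fc) k.2.2.1 ((deg_of_hom hG (mem_support_iff.1 hμ)).trans hk.symm)]
  split_ifs with h
  · let l0 : Lb T cl₂ Empty m := ⟨(k.cd, spW μ, none), k.2.1, h.1, h.2.trans hk⟩
    rw [sum_eq_single l0]
    · exact ((if_pos rfl).trans (congrArg _ (if_pos rfl))).symm
    · intro l _ hne
      split_ifs with h1 h2
      · exact (hne (Lb.ext' h1 h2.symm (bs_none l))).elim
      · exact mul_zero _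
      · rfl
    · simp
  · refine (sum_eq_zero fun l _ => ?_).symm
    split_ifs with h1 h2
    · exact (h (h2 ▸ ⟨l.2.2.1, by rw [l.card_eq (bs_none l), h1, hk]⟩)).elim
    · exact mul_zero _
    · rfl

omit [Fintype W₁] [DecidableEq W₁] in
theorem altL_lift' (z : Lb T cl₂ Empty m → R) (l : Lb T cl₂ Empty m) {a : T.ι} (h : l.cd = a) :
    altL l.fc (P057TP.lift z none a) = z l := by
  rw [← h, ← bs_none l, altL_lift]

theorem sub_eq (hM : ∀ x v, M x v ≠ 0 → cl₂ x = cl₁ v) (z : Lb T cl₂ Empty m → R)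
    (k : Lb T cl₁ Empty m) {a : T.ι} (h : k.cd = a) :
    altL k.fc (ph R M (P057TP.lift z none a)) = sub M z k := by
  rw [key hM k (h ▸ lift_hom z none _)]
  exact sub_congr fun l e _ => altL_lift' z l (e.trans h)

theorem subp : SUBP := by
  intro T D W W₁ W₂ _ _ _ _ _ _ Z m cl₁ cl₂ j₁ j₂ M P hZ hM hJ x k hk
  have hM' := fun x v => (hM x v).1
  have hc := k.card_eq (bs_none k)
  have h2 := (ok_pbo hZ j₂ Empty).fam.hom none k.cd
  have h1 : JH T.lv _ k.fc.card := hc ▸ (ok_pbo hZ j₁ Empty).fam.hom none k.cd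
  rw [sub_congr (z' := fun l => altL l.fc (eval (P057TP.lift x none)
    ((pbo Z j₂ Empty).fam.fn none k.cd))) fun l e _ => by rw [Sys.pr, Fam.alt_eq, bs_none l, e],
    ← key hM' k (JH.eval h2 (lift_hom x none)), Sys.pr, Fam.alt_eq, bs_none k,
    h1.altL_congr (lift_hom _ none) (Y' := fun b => ph ℝ M (P057TP.lift x none b))
      (fun b => ph_hom (lift_hom x none b)) fun b B hB e => ?_]
  · refine dlt_congr fun B hB => ?_
    rw [hom_eval, hom_eval (ph ℝ M), hom_eval]
    simp only [pbo, fsb, MvPolynomial.map_map]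
    congr 3
    refine ringHom_ext (fun r => by simp only [RingHom.comp_apply, ph, sb_C]) fun w => ?_
    cases w with
    | none => simp only [RingHom.comp_apply, ph, sb_none]
    | some w =>
      simp only [RingHom.comp_apply, sb_some, map_sum, evA_ph, evA_some]
      rw [← Int.cast_sum, sum_comm, sum_filter, sum_congr rfl fun v hv => (sum_filter _ _).trans
        (hJ v (hk v (hB hv)) w), ← sum_filter, ← sum_filter, ← sum_filter, filter_filter]
      simp only [sum_const, nsmul_eq_mul, mul_one, Int.cast_natCast]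
      congr 2
      ext v; simp [and_comm]
  · let k' : Lb T cl₁ Empty m := ⟨(b, B, none), by
      have := card_le_card hB
      have := k.2.1
      change T.lv k.cd < m at this
      change T.lv b < m
      omega, k.2.2.1.mono hB, e⟩
    exact (altL_lift' _ k' rfl).trans (sub_eq hM' x k' rfl).symm

theorem subc : SUBC := by
  intro T D W₁ W₂ _ _ _ _ m cl₁ cl₂ R _
  refine ⟨fun W₃ _ _ cl₃ M M' hM hM' z => funext fun k => ?_, fun g hc hg z => funext fun k => ?_⟩
  · have h1 := fun x v => (hM x v).1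
    have h2 := fun x v => (hM' x v).1
    rw [← sub_eq (M := fun y v => ∑ x, M' y x * M x v) (fun y v h => by
        obtain ⟨x, -, h3⟩ := exists_ne_zero_of_sum_ne_zero h
        exact (h2 y x (left_ne_zero_of_mul h3)).trans (h1 x v (right_ne_zero_of_mul h3))) z k rfl,
      sub_congr (z' := fun l => altL l.fc (ph R M' (P057TP.lift z none k.cd)))
        fun l e _ => (sub_eq h2 z l e).symm, ← key h1 k (ph_hom (lift_hom z none _)),
      ← RingHom.comp_apply]
    congr 2
    refine ringHom_ext (fun r => by simp only [RingHom.comp_apply, ph, sb_C]) fun w => ?_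
    cases w with
    | none => simp only [RingHom.comp_apply, ph, sb_none]
    | some w =>
      simp only [RingHom.comp_apply, ph, sb_some, map_sum, map_mul, sb_C, Int.cast_sum,
        Int.cast_mul, mul_sum, sum_mul, mul_assoc]
      exact sum_comm
  · have h1 : ∀ l : Lb T cl₂ Empty m, cf (fun x v => if g v = x then 1 else 0) l.fc k.fc =
        if l.fc ⊆ k.fc.image g then 1 else 0 := fun l => by
      rw [cf, prod_congr rfl (g := fun x => if x ∈ k.fc.image g then 1 else 0) fun x _ => ?_,
        prod_ite_zero, prod_const_one]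
      · rfl
      split_ifs with h
      · obtain ⟨v, hv, rfl⟩ := mem_image.1 h
        simp [hg.eq_iff, hv]
      · exact sum_eq_zero fun v hv => if_neg fun e => h (mem_image.2 ⟨v, hv, e⟩)
    rw [sub_def, sum_eq_single (P057GH.lift hc Empty.elim k), if_pos (lift_cd _ _), h1, lift_fc,
      if_pos Subset.rfl, Int.cast_one, one_mul, Function.comp_apply]
    · intro l _ hne
      rw [h1]
      split_ifs with e1 e2
      · refine (hne (Lb.ext' e1 (eq_of_subset_of_card_le e2 ?_) ((bs_none _).trans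
          (bs_none _).symm))).elim
        rw [lift_fc, card_image_of_injective _ hg, l.card_eq (bs_none l), k.card_eq (bs_none k), e1]
      · simp
      · rfl
    · simp

end

end Vale.Agent.P057SB
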